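import Crest.Agent.X212.For74.Defs
import Crest.Agent.X212.For32.Jet
import Crest.Agent.X212.For74.Abs
import Crest.Agent.X212.For74.Ins
import Crest.Agent.X212.For74.Top
import Crest.Agent.X212.Top11.RowA
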