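import Crest.Agent.X212.Lpe67.Nk
import Crest.Agent.X212.Top11.CutA
import Crest.Agent.X212.Top11.CutU
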