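import Crest.Agent.X212.Top11.Lw_Mg
import Crest.Agent.X212.Dr59.NbH_Mg
import Crest.Agent.X212.Mod61.Mds
import Crest.Agent.X212.Line51.Nat
import Crest.Agent.X212.Lns4.Met
import Crest.Agent.X212.Lns4.Neck
import Crest.Agent.X212.Dr59.NbL
import Crest.Agent.X212.Br55.Nm
import Crest.Agent.X212.Mv27.Sur
import Crest.Agent.X212.Mv27.Rt
import Crest.Agent.X212.Rn83.Main
import Crest.Agent.X212.Nat75.Inst
import Crest.Agent.X212.Ins30.Join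
import Crest.Agent.X212.Lx5.Main

/-!
# Row 212, TOP (helper11): the two small cases from the open inputs of layer P
-/

set_option autoImplicit false
noncomputable section
open Set Function Filter
open scoped ContDiff Manifold

namespace Crest.Agent.X212.Top11
open M G75 Wd38 Nm96 Br55
open Rod53 (Z2)
open Ext52 (KD Fill)
open Orx52 (Pos oF ori_oF)

theorem anH : Brn93.AnH κ0 := fun _ _ _ B h => Top0.nv_mds B h fun _ _ _ _ hL => Mod61.mdsL B hL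

variable {k : KD} {a a' : Z2}

/-- **the situation exists** -/
theorem exists_sit (hk : ¬k.thick.IsUnknot) (s : Slp a a')
    {g : Fill k.toTube (fd a) ≃ₘ^∞⟮𝓡 3, 𝓡 3⟯ Fill k.toTube (fd a')}
    (hg : Pos (𝓡 3) (𝓡 3) g univ (oF _ _) (oF _ _)) {M : ℝ} (hM : 13 ≤ M) :
    ∃ (C : Cx (nm a a')) (G : Tab C.kd κ0) (L : LP C G (pm a a' M) l0) (μ : ℕ → ℤ × ℤ), Sit L μ := by
  let ρ : Fill (Cab39.cable k).toTube (fd (1, 0)) ≃ₘ^∞⟮𝓡 3, 𝓡 3⟯ St29.Yc k.toTube := ρ0 k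
  let o : Bb31.Fm 3 (St29.Yc k.toTube) := oF (Cab39.cable k).toTube Cab39.σ0
  have ho : Int54.Ori (𝓡 3) o := ori_oF _ _
  have hρ : Pos (𝓡 3) (𝓡 3) ρ univ (oF _ _) o := pos_ρ0 k
  obtain ⟨C₁, C₂, X, _, J, O, hO, hc, -, -, H⟩ :=
    Brn93.nv_cx anH Embedding.inr (Top0.hout k hk o ho) ho hρ (one_mul 1)
  obtain ⟨S, u, hS, hu, hi⟩ := exists_lx hg J hρ hO hc s M
  obtain ⟨G, g1, g2⟩ := Gl9.exists_tab (cx k hg J hρ hO hc).kd (κ := κ0) Sum.inl_injective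
  obtain ⟨K, e1, e2, dg, nv⟩ := H a a' g hg (pm a a' M) G S u rfl hS hu
  obtain ⟨F, n, l, f1, f2, f3⟩ := lens (P := pm a a' M) (ent a a' hM)
  obtain ⟨D, -⟩ := Line51.exists_lmd G K (.refl _) f1 f2 f3
  obtain ⟨B, b, cut, c1, c2, c3, c4⟩ := D.exists_lm (Lns4.met Lns4.neck) g1
  obtain ⟨m, hm⟩ := ((Dr59.nbL K l0 s.hJ rfl dg M).and (Dr59.nbH K l0 s.hJ rfl dg M)).exists
  have sp : ∀ τ ≠ WT.sph, ∀ (j : Fin 8) y, Met55.atx (G.g τ).e y (Embedding.inr j) = 0 :=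
    fun τ _ j y => congrFun (g2 τ (.inr j) (by simp)) y
  exact ⟨_, G, D.lp s.hJ .inr sp B b cut c2, fun i => (i, m), ⟨_, _, ent a a' hM⟩, g1,
    D.nat _ _ _ _ _ _ _ (hi K e1 e2), D.lp_nat D.h _ _ _ _ _ _ _, ⟨c1, c2, c3, c4, Rz.mark_spare _ G _ _ .inr sp,
      fun σ => (D.isN σ).spare ((Fintype.equivFinOfCardEq (by simp)).symm.toEmbedding.trans Embedding.inr)
        fun _ _ => by simp [Line51.V1, Line51.em], Lx5.lx D B b cut⟩,
    Dr59.nbM (Γ := nm a a') s.hJ K l0, ⟨m, fun _ => rfl, hm⟩, Cap57.nbF l0 dg tendsto_natCast_atTop_atTop fun _ => rfl,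
    nv l0 _ rfl _ (tendsto_atTop_add_const_right _ (-m) tendsto_natCast_atTop_atTop)⟩

namespace PL
variable (H : PL)
include H

theorem core {Lm : LM κ0 l0} (h : LmOK Lm) : Ins26.Core Lm :=
  ⟨H.kit _ h, H.lens _ h, H.cnt, Nat75.dat h.lok.choose.agr, H.ex _ h, Ins30.join h.cut⟩

theorem lvs {Γ : Nm} {C : Cx Γ} {G : Tab C.kd κ0} {P : Pm Γ} {L : LP C G P l0} {μ : ℕ → ℤ × ℤ} (S : Sit L μ) :
    Lvs L (Ins26.th (T0 L.Lm)) μ :=
  have c := H.core S.lm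
  have tw : TwStmt L := Mv27.twStmt S.nat
  let ⟨_, m1, m2, _⟩ := S.nL
  ⟨Nat75.inst _ c S.lm.cut (H.rf _ S.lm c) (H.fact _ S.lm c) (H.nv _ S.lm c), Br33.okStmt L,
    numS L m1 (Br33.okStmt L) tw S.nM m2 S.nF (Num57.nbT _) (H.ab _ _ _ _ L μ S)
      (H.hg _ _ _ _ L μ S), tw, H.can _ _ _ _ L μ S, Mv27.surStmt S.nat, Mv27.rtStmt L, H.rs _ _ _ _ L μ S,
    Ds83.ds (S.std .rr) S.natL, Rn83.rn L, S.nv⟩

theorem no (hk : ¬k.thick.IsUnknot) (s : Slp a a') (W : WdL a a') :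
    ¬∃ g : Fill k.toTube (fd a) ≃ₘ^∞⟮𝓡 3, 𝓡 3⟯ Fill k.toTube (fd a'),
      Pos (𝓡 3) (𝓡 3) g univ (oF _ _) (oF _ _) := fun ⟨_, hg⟩ =>
  let ⟨_, hM, w⟩ := W
  let ⟨_, _, L, μ, S⟩ := exists_sit hk s hg hM
  let ⟨j, h1, h2⟩ := bridge (H.lvs S)
  w _ h1 (H.tm _ _ _ _ L μ S (H.lvs S) (H.ab _ _ _ _ L μ S) (H.hg _ _ _ _ L μ S) j h2)

theorem opp1 : Bor5.Opp1 := fun _ hk q hq c =>
  have o := fun x : ℤ => isCoprime_one_left (x := x)
  (H.w1 q hq).elim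
    (fun w => H.no hk ⟨pr_of (o _), pr_of (o _).neg_left, one_dvd _, one_dvd _, by simp⟩ w
      (exists_g c (o _) (o _) (.inr rfl) (by simp)))
    fun w => H.no hk ⟨pr_of (o _), pr_of (o _), one_dvd _, one_dvd _, by simp⟩ w
      (exists_g c (o _) (o _) (.inl rfl) (by simp))

theorem opp2 : Bor5.Opp2 := fun _ hk c =>
  have o := fun x : ℤ => isCoprime_one_right (x := x)
  H.no hk ⟨pr_of (o _), pr_of (o _), dvd_rfl, by simp, by simp⟩ H.w2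
    (exists_g c (o _) (o _).neg_right (.inr rfl) (by simp))

/-- **the statement** from the Floer theory and the open inputs of layer P -/
theorem goal (hT : Bor5.T.ThStmt) : Skel83.Goal := Top0.goal hT H.opp1 H.opp2

end PL

end Crest.Agent.X212.Top11
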