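import Crest.Agent.X212.Top11.Jn
import Crest.Agent.X212.Br55.Rf
import Crest.Agent.X212.Prf9.Main
import Crest.Agent.X212.Rod19.Mod
import Crest.Agent.X212.Rod19.Main
import Crest.Agent.X212.Lwd19.Rod
import Crest.Agent.X212.Lwd19.Wd
import Crest.Agent.X212.Lin43.Lin
import Crest.Agent.X212.Lwd19.Lm
import Crest.Agent.X212.Line51.Mc
import Crest.Agent.X212.Top11.Defs
import Crest.Agent.X212.Top11.Lw
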